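import Vale.Agent.Lib.P345h27.Final

/-! # P345: single-fold representations of sets with one auxiliary variable -/

namespace Vale.Agent.Results.P345.AlgebraicWitness

open Vale.Agent.P345h27

/-- The value of the integer polynomial `P` at the parameters `a` and the auxiliary values `w`. -/
noncomputable def value {n m : ℕ} (P : MvPolynomial (Fin n ⊕ Fin m) ℤ) (a : Fin n → ℕ)
    (w : Fin m → ℕ) : ℤ :=
  MvPolynomial.eval (fun i => ((Sum.elim a w i : ℕ) : ℤ)) P

/-- `P` is a Diophantine representation of `S ⊆ ℕⁿ` with `m` auxiliary variables. -/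
def IsRepresentation {n m : ℕ} (P : MvPolynomial (Fin n ⊕ Fin m) ℤ) (S : Set (Fin n → ℕ)) :
    Prop :=
  ∀ a : Fin n → ℕ, a ∈ S ↔ ∃ w : Fin m → ℕ, value P a w = 0

/-- `S ⊆ ℕⁿ` has a single-fold Diophantine representation. -/
def HasSingleFold {n : ℕ} (S : Set (Fin n → ℕ)) : Prop :=
  ∃ (m : ℕ) (P : MvPolynomial (Fin n ⊕ Fin m) ℤ), IsRepresentation P S ∧
    ∀ (a : Fin n → ℕ) (w w' : Fin m → ℕ), value P a w = 0 → value P a w' = 0 → w = w'

/-- The value of `P ∈ ℤ[A₁, …, Aₙ, Y]` at `(a, y)`. -/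
noncomputable def valueAt {n : ℕ} (P : MvPolynomial (Fin n ⊕ Fin 1) ℤ) (a : Fin n → ℕ)
    (y : ℕ) : ℤ :=
  value P a (fun _ => y)

section conv

variable {n : ℕ}

theorem sf_iff (p : (Fin n → ℕ) → Prop) : SF p ↔ HasSingleFold {a | p a} := by
  constructor
  · rintro ⟨m, f, ⟨P, hP⟩, h1, h2⟩
    refine ⟨m, P, fun a => ?_, fun a w w' hw hw' => ?_⟩
    · show p a ↔ _
      rw [h1 a]
      constructor
      · rintro ⟨w, hw⟩
        exact ⟨w, (hP _).trans hw⟩
      · rintro ⟨w, hw⟩
        exact ⟨w, (hP _).symm.trans hw⟩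
    · exact h2 a w w' ((hP _).symm.trans hw) ((hP _).symm.trans hw')
  · rintro ⟨m, P, h1, h2⟩
    refine ⟨m, fun z => val P z, ⟨P, fun _ => rfl⟩, fun a => h1 a, fun a w w' hw hw' => ?_⟩
    exact h2 a w w' hw hw'

theorem good_iff (p : (Fin n → ℕ) → Prop) :
    Good p ↔ HasSingleFold {a | p a} ∧ HasSingleFold {a | p a}ᶜ := by
  unfold Good
  rw [sf_iff, sf_iff]
  rfl

/-- The polynomial family of `P`. -/
theorem joint_poly (P : MvPolynomial (Fin n ⊕ Fin 1) ℤ) :
    PolyFn (fun z : Option (Fin n) → ℕ => valueAt P (fun i => z (some i)) (z none)) := by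
  have h : PolyFn (fun z : (Fin n ⊕ Fin 1) → ℕ => val P z) := ⟨P, fun _ => rfl⟩
  have h2 := h.subst (h := fun (z : Option (Fin n) → ℕ) =>
    (Sum.elim (fun i => z (some i)) (fun _ => z none) : Fin n ⊕ Fin 1 → ℕ)) (by
      rintro (i | i)
      · exact PolyFn.coord (some i)
      · exact PolyFn.coord none)
  exact h2

theorem family_DF (P : MvPolynomial (Fin n ⊕ Fin 1) ℤ) :
    ∃ d, DF d (fun (a : Fin n → ℕ) (y : ℕ) => valueAt P a y) :=
  DF.exists (joint_poly P)

end conv

/-- **Sets defined by one quantifier, and quantification over algebraic witnesses.** -/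
theorem result :
    -- sets that have a Diophantine representation with one auxiliary variable
    (∀ (n : ℕ) (S : Set (Fin n → ℕ)),
      (∃ P : MvPolynomial (Fin n ⊕ Fin 1) ℤ, IsRepresentation P S) →
        HasSingleFold S ∧ HasSingleFold Sᶜ) ∧
    -- one unbounded quantifier in front of any Boolean combination of polynomial inequalities
    (∀ (n k : ℕ) (P : Fin k → MvPolynomial (Fin n ⊕ Fin 1) ℤ) (Φ : (Fin k → Prop) → Prop),
      HasSingleFold {a | ∃ y : ℕ, Φ (fun i => 0 ≤ valueAt (P i) a y)} ∧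
        HasSingleFold {a | ∃ y : ℕ, Φ (fun i => 0 ≤ valueAt (P i) a y)}ᶜ) ∧
    -- quantification over algebraic witnesses
    (∀ (n : ℕ) (P : MvPolynomial (Fin n ⊕ Fin 1) ℤ) (T : Set (Fin (n + 1) → ℕ)),
      HasSingleFold T → HasSingleFold Tᶜ →
        HasSingleFold {a : Fin n → ℕ | (∃ y : ℕ, valueAt P a y ≠ 0) ∧
          ∃ y : ℕ, valueAt P a y = 0 ∧ (Fin.snoc a y : Fin (n + 1) → ℕ) ∈ T} ∧
        HasSingleFold {a : Fin n → ℕ | (∃ y : ℕ, valueAt P a y ≠ 0) ∧
          ∃ y : ℕ, valueAt P a y = 0 ∧ (Fin.snoc a y : Fin (n + 1) → ℕ) ∈ T}ᶜ) := by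
  refine ⟨?_, ?_, ?_⟩
  · rintro n S ⟨P, hP⟩
    have hg : ∀ i : Fin 2, ∃ d, DF d ((fun i : Fin 2 => fun (a : Fin n → ℕ) (y : ℕ) =>
        if i = 0 then valueAt P a y else -1 * valueAt P a y) i) := by
      obtain ⟨d, hd⟩ := family_DF P
      intro i
      by_cases hi : i = 0
      · refine ⟨d, ?_⟩
        simp only [hi, if_true]
        exact hd
      · refine ⟨d, ?_⟩
        simp only [hi, if_false]
        exact DF.smul (PolyFn.const (-1)) hd
    have h1 := good_exists hg (fun v : Fin 2 → Prop => v 0 ∧ v 1)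
    have h2 : Good (fun a : Fin n → ℕ => a ∈ S) := by
      refine h1.congr (fun a => ?_)
      rw [hP a]
      constructor
      · rintro ⟨w, hw⟩
        have hw' : valueAt P a (w 0) = 0 := by
          have e : (fun _ => w 0) = w := by
            funext j
            rw [Subsingleton.elim j 0]
          show value P a (fun _ => w 0) = 0
          rw [e]
          exact hw
        refine ⟨w 0, ?_⟩
        simp [hw']
      · rintro ⟨y, hy⟩
        refine ⟨fun _ => y, ?_⟩
        simp at hy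
        show valueAt P a y = 0
        omega
    exact (good_iff _).mp h2
  · intro n k P Φ
    exact (good_iff _).mp (good_exists (fun i => family_DF (P i)) Φ)
  · intro n P T hT hTc
    have hT' : Good (fun b : Fin (n + 1) → ℕ => b ∈ T) := (good_iff _).mpr ⟨hT, hTc⟩
    have hT2 : Good (fun z : Option (Fin n) → ℕ =>
        (Fin.snoc (fun i => z (some i)) (z none) : Fin (n + 1) → ℕ) ∈ T) := by
      apply hT'.subst (h := fun z : Option (Fin n) → ℕ =>
        (Fin.snoc (fun i => z (some i)) (z none) : Fin (n + 1) → ℕ))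
      intro i
      refine Fin.lastCases ?_ (fun j => ?_) i
      · simp only [Fin.snoc_last]
        exact PolyFn.coord none
      · simp only [Fin.snoc_castSucc]
        exact PolyFn.coord (some j)
    exact (good_iff _).mp (good_roots (joint_poly P) hT2)

end Vale.Agent.Results.P345.AlgebraicWitness
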